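import Mathlib

/-! # P257 / H254 / Mu : the weight used in the tridegree `(7, 3p^2+4p)` -/

namespace Vale.Agent.P257.H254

/-- the level of the digit `t_{i+1}^(p^j)`: `1, 1, p-1` on `h10, h11, h12` and `3, 3p-1` on
`h20, h21` -/
def muG (p : ℕ) (v : ℕ × ℕ) : ℕ :=
  2 * v.1 + 1 + (if v.2 ≤ 2 ∧ 2 ≤ v.1 + v.2 then p - 2 else 0) +
    (if v.2 ≤ 1 ∧ 2 ≤ v.1 + v.2 then 2 * p - 2 else 0)

theorem muG_add_lt {p : ℕ} (_hp : 3 ≤ p) (a b j : ℕ) :
    muG p (a, j) + muG p (b, j + a + 1) < muG p (a + b + 1, j) := by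
  simp only [muG]
  split_ifs <;> omega

theorem muG_carry {p : ℕ} (hp : 3 ≤ p) (i j : ℕ) : muG p (i, j + 1) < p * muG p (i, j) := by
  have h : ∀ x, i + 1 ≤ x → p * (2 * x - 1) ≥ p * (2 * i + 1) := fun x hx =>
    Nat.mul_le_mul_left _ (by omega)
  have h1 : p * (2 * i + 1) = 2 * (p * i) + p := by ring
  have h2 : 3 * i ≤ p * i := Nat.mul_le_mul_right _ hp
  have h3 : ∀ c, p * (2 * i + 1 + c) = 2 * (p * i) + p + p * c := fun c => by ring
  have h4 : 3 * (p - 2) ≤ p * (p - 2) := Nat.mul_le_mul_right _ hp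
  have h5 : 3 * (2 * p - 2) ≤ p * (2 * p - 2) := Nat.mul_le_mul_right _ hp
  simp only [muG]
  rcases i with _ | _ | i
  · split_ifs <;> simp only [mul_add, add_zero, zero_add, mul_zero, mul_one] <;> omega
  · split_ifs <;> simp only [mul_add, add_zero, zero_add, mul_zero, mul_one] <;> omega
  · have h6 : p * (2 * (i + 2)) = 2 * (p * i) + 4 * p := by ring
    have h7 : 3 * i ≤ p * i := Nat.mul_le_mul_right _ hp
    split_ifs <;> simp only [mul_add, add_zero, zero_add, mul_zero, mul_one] <;>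
      simp only [mul_add] at h6 <;> omega

end Vale.Agent.P257.H254
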