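import Vale.Agent.P257.H93.Cup
import Vale.Agent.P257.H134.Cochains

/-! # P257 / H254 / Letters : coboundaries of `h_{ij}` and `b_{ij}` as cup products -/

noncomputable section

namespace Vale.Agent.P257.H254

open Vale.Agent.P257.H93 Vale.Agent.P257.H134 Finset

variable {p : ℕ} [hp : Fact p.Prime]

/-- exact coboundary of `h_{ij}` -/
theorem dP_hP (i j : ℕ) (hi : 0 < i) : dP 1 (hP p i j) =
    - ∑ a ∈ Ioo 0 i, cupP (hP p a j) (hP p (i - a) (a + j)) := by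
  apply ext_evG
  intro B _ _ g
  rw [evG_d_hP g i j hi, map_neg, map_sum]
  refine congrArg _ (sum_congr rfl fun a _ => ?_)
  have h := evG_cupP (hP p a j) (hP p (i - a) (a + j)) g
  rw [evG_hP, evG_hP] at h
  exact h.symm

/-- exact coboundary of `b_{ij}` -/
theorem dP_bP (i j : ℕ) (hi : 0 < i) : dP 2 (bP p i j) =
    ∑ a ∈ Ioo 0 i, (cupP (bP p a j) (hP p (i - a) (a + j + 1)) -
      cupP (hP p a (j + 1)) (bP p (i - a) (a + j))) := by
  apply ext_evG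
  intro B _ _ g
  rw [evG_d_bP g i j hi, map_sum]
  refine sum_congr rfl fun a _ => ?_
  rw [map_sub]
  have h1 := evG_cupP (bP p a j) (hP p (i - a) (a + j + 1)) g
  have h2 := evG_cupP (hP p a (j + 1)) (bP p (i - a) (a + j)) g
  rw [evG_hP, evG_bP] at h1 h2
  exact congrArg₂ _ h1.symm h2.symm

theorem dP_h1 (j : ℕ) : dP 1 (hP p 1 j) = 0 := by
  rw [dP_hP 1 j one_pos, show Ioo 0 1 = (∅ : Finset ℕ) from rfl, sum_empty, neg_zero]

theorem dP_h2 (j : ℕ) : dP 1 (hP p 2 j) = -cupP (hP p 1 j) (hP p 1 (j + 1)) := by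
  rw [dP_hP 2 j two_pos, show Ioo 0 2 = ({1} : Finset ℕ) from rfl, sum_singleton, add_comm 1 j]

theorem dP_b1 (j : ℕ) : dP 2 (bP p 1 j) = 0 := by
  rw [dP_bP 1 j one_pos, show Ioo 0 1 = (∅ : Finset ℕ) from rfl, sum_empty]

theorem dP_b2 (j : ℕ) : dP 2 (bP p 2 j) =
    cupP (bP p 1 j) (hP p 1 (j + 2)) - cupP (hP p 1 (j + 1)) (bP p 1 (j + 1)) := by
  rw [dP_bP 2 j two_pos, show Ioo 0 2 = ({1} : Finset ℕ) from rfl, sum_singleton,
    add_comm 1 j]

end Vale.Agent.P257.H254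

end
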