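import Vale.Agent.P257.H93.Wt
import Vale.Agent.P257.H254.Letters

/-! # P257 / H254 / LetterWt : weights of `h_{ij}` and `b_{ij}` -/

noncomputable section

namespace Vale.Agent.P257.H254

open Vale.Agent.P251.F Vale.Agent.P251.F.F3 Vale.Agent.P217 Vale.Agent.P257.H93
  Vale.Agent.P257.H134 Finset

variable {p : ℕ} [hp : Fact p.Prime]

omit hp in
theorem isWtP_tt (n : ℕ) (k : Fin n) (i : ℕ) : IsWtP p n ((p : ℤ) ^ i - 1) (tt p n k i) := by
  cases i with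
  | zero => rw [pow_zero, sub_self]; exact isWtP_wt_zero
  | succ i => exact isWtP_X (k, i)

omit hp in
theorem isWtP_hP (i j : ℕ) : IsWtP p 1 (((p : ℤ) ^ i - 1) * (p : ℤ) ^ j) (hP p i j) := by
  have h := (isWtP_tt (p := p) 1 0 i).pow (p ^ j)
  rw [nsmul_eq_mul, mul_comm, Nat.cast_pow] at h
  exact h

theorem co_scA {B : Type} [CommRing B] [FpA p B] (u : Bˣ) (g : addS B) (i : ℕ) :
    co (p := p) (scA u g) i = ((u ^ ((p : ℤ) ^ i - 1) : Bˣ) : B) * co (p := p) g i := by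
  rw [co, tc_scA, unit_pow_eq]
  rfl

theorem isWtP_bP (i j : ℕ) :
    IsWtP p 2 ((p : ℤ) * (((p : ℤ) ^ i - 1) * (p : ℤ) ^ j)) (bP p i j) := by
  rw [← isWt_ofP]
  intro B _ _ u x g
  change evG 2 (fun k => scA u (g k)) (bP p i j) = _ * evG 2 g (bP p i j)
  rw [evG_bP, evG_bP, ← map_inv, ← map_mul, ← map_inv, ← map_mul]
  set a := g 0 * (g 1)⁻¹
  set b := g 1 * (g 2)⁻¹
  set c : B := ((u ^ (((p : ℤ) ^ i - 1) * (p : ℤ) ^ j) : Bˣ) : B) with hc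
  have h1 : ((u ^ ((p : ℤ) * (((p : ℤ) ^ i - 1) * (p : ℤ) ^ j)) : Bˣ) : B) = c ^ p := by
    rw [hc, mul_comm, zpow_mul, zpow_natCast, Units.val_pow_eq_pow_val]
  rw [h1, bb, bb, ← gam_smul]
  refine gam_congr p rfl fun x hx => ?_
  rw [HasAntidiagonal.mem_antidiagonal] at hx
  rw [co_scA, co_scA, mul_pow, mul_pow]
  have h2 : c = ((u ^ ((p : ℤ) ^ x.1 - 1) : Bˣ) : B) ^ p ^ j *
      ((u ^ ((p : ℤ) ^ x.2 - 1) : Bˣ) : B) ^ p ^ (x.1 + j) := by
    rw [hc, ← Units.val_pow_eq_pow_val, ← Units.val_pow_eq_pow_val, ← Units.val_mul,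
      ← zpow_natCast, ← zpow_natCast, ← zpow_mul, ← zpow_mul, ← zpow_add]
    congr 2
    rw [← hx]
    push_cast
    ring
  rw [h2]
  ring

end Vale.Agent.P257.H254

end
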