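import Vale.Agent.P257.H632.Defs
import Vale.Agent.P257.H93.Wt
import Vale.Agent.P257.H254.LetterWt
import Vale.Agent.P257.H327.Mon

/-! # P257 / H254 / Lin : linear forms of `dP`, `Th`; natural number weights -/

noncomputable section

namespace Vale.Agent.P257.H254

open Vale.Agent.P257.H93 Vale.Agent.P257.H134 Vale.Agent.P257.H632

variable {p : ℕ}

/-! ### linearity of `Th` -/

section Words

variable {I : Type} [DecidableEq I] [HasOrd I] {k : Type} [CommRing k]

theorem Ph_add (T : Finset I) (f g : List (I →₀ ℕ) → EI I → k) :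
    Ph p T (f + g) = Ph p T f + Ph p T g := by
  funext l
  simp only [Ph, Pi.add_apply, map_add]
  rw [← Finset.sum_add_distrib]
  refine Finset.sum_congr rfl fun v _ => ?_
  abel

theorem Ph_smul (c : k) (T : Finset I) (f : List (I →₀ ℕ) → EI I → k) :
    Ph p T (c • f) = c • Ph p T f := by
  funext l
  simp only [Ph, Pi.smul_apply, map_smul]
  rw [Finset.smul_sum]
  refine Finset.sum_congr rfl fun v _ => ?_
  rw [smul_add]

theorem Ph_iter_add (T : Finset I) (n : ℕ) (f g : List (I →₀ ℕ) → EI I → k) :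
    (Ph p T)^[n] (f + g) = (Ph p T)^[n] f + (Ph p T)^[n] g := by
  induction n generalizing f g with
  | zero => rfl
  | succ n ih => rw [Function.iterate_succ_apply, Ph_add, ih]; rfl

theorem Ph_iter_smul (c : k) (T : Finset I) (n : ℕ) (f : List (I →₀ ℕ) → EI I → k) :
    (Ph p T)^[n] (c • f) = c • (Ph p T)^[n] f := by
  induction n generalizing f with
  | zero => rfl
  | succ n ih => rw [Function.iterate_succ_apply, Ph_smul, ih]; rfl

theorem thW_add (n : ℕ) (r : EI I) (f g : List (I →₀ ℕ) → k) :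
    thW p n r (f + g) = thW p n r f + thW p n r g := by
  have h : toC (f + g) (one1 : EI I → k) = toC f one1 + toC g one1 := by
    funext l
    simp only [toC, Pi.add_apply, add_smul]
  rw [thW, h, Ph_iter_add]
  rfl

theorem thW_smul (c : k) (n : ℕ) (r : EI I) (f : List (I →₀ ℕ) → k) :
    thW p n r (c • f) = c * thW p n r f := by
  have h : toC (c • f) (one1 : EI I → k) = c • toC f one1 := by
    funext l
    simp only [toC, Pi.smul_apply, smul_assoc]
  rw [thW, h, Ph_iter_smul]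
  rfl

end Words

/-- `Θ_r` as a linear functional -/
def ThL (p n : ℕ) (r : EI (ℕ × ℕ)) : CobP p n →ₗ[ZMod p] ZMod p where
  toFun := Th n r
  map_add' x y := by
    have h : symb n (x + y) = symb n x + symb n y := funext fun l => symb_add x y l
    rw [Th, h, thW_add]
    rfl
  map_smul' c x := by
    have h : symb n (c • x) = c • symb n x := funext fun l => symb_smul c x l
    rw [Th, h, thW_smul]
    rfl

@[simp] theorem ThL_apply (n : ℕ) (r : EI (ℕ × ℕ)) (x : CobP p n) : ThL p n r x = Th n r x := rfl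

theorem Th_zero (n : ℕ) (r : EI (ℕ × ℕ)) : Th n r (0 : CobP p n) = 0 := map_zero (ThL p n r)

theorem Th_add (n : ℕ) (r : EI (ℕ × ℕ)) (x y : CobP p n) :
    Th n r (x + y) = Th n r x + Th n r y := map_add (ThL p n r) x y

theorem Th_sub (n : ℕ) (r : EI (ℕ × ℕ)) (x y : CobP p n) :
    Th n r (x - y) = Th n r x - Th n r y := map_sub (ThL p n r) x y

theorem Th_neg (n : ℕ) (r : EI (ℕ × ℕ)) (x : CobP p n) :
    Th n r (-x) = -Th n r x := map_neg (ThL p n r) x

theorem Th_smul (n : ℕ) (r : EI (ℕ × ℕ)) (c : ZMod p) (x : CobP p n) :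
    Th n r (c • x) = c * Th n r x := map_smul (ThL p n r) c x

/-! ### the filtration -/

theorem Fil_mono (μ : ℕ × ℕ → ℕ) (n : ℕ) : Monotone (Fil (p := p) μ n) :=
  fun _ _ h _ hz l hl => hz l (h.trans hl)

/-! ### `dP` as a linear map -/

section
variable [hp : Fact p.Prime]

/-- the differential as a linear map -/
def dL (p : ℕ) [Fact p.Prime] (n : ℕ) : CobP p n →ₗ[ZMod p] CobP p (n + 1) :=
  (dP n).toZModLinearMap p

@[simp] theorem dL_apply (n : ℕ) (x : CobP p n) : dL p n x = dP n x := rfl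

theorem dL_dL (n : ℕ) (x : CobP p n) : dL p (n + 1) (dL p n x) = 0 := dP_dP n x

/-! ### weights -/

theorem wD_mul (v : ℕ × ℕ) : (p - 1) * wD p v = p ^ v.2 * (p ^ (v.1 + 1) - 1) := by
  have h1 : wD p v = p ^ v.2 * ∑ l ∈ Finset.range (v.1 + 1), p ^ l := by
    rw [wD, Finset.mul_sum]
    exact Finset.sum_congr rfl fun l _ => pow_add _ _ _
  rw [h1, mul_left_comm, mul_comm (p - 1), Nat.geomSum_eq hp.out.two_le,
    Nat.div_mul_cancel (Nat.sub_one_dvd_pow_sub_one p _)]

theorem wX_eq (n : ℕ) (ki : Fin n × ℕ) : wX p n ki = ((p - 1 : ℕ) : ℤ) * (wD p (ki.2, 0) : ℤ) := by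
  rw [← Nat.cast_mul, wD_mul, wX]
  simp only [pow_zero, one_mul]
  rw [Nat.cast_sub (Nat.one_le_pow _ _ hp.out.pos)]
  push_cast
  ring

theorem weight_wX (n : ℕ) (e : (Fin n × ℕ) →₀ ℕ) : Finsupp.weight (wX p n) e =
    ((p - 1 : ℕ) : ℤ) * ((Finsupp.weight (fun ki : Fin n × ℕ => wD p (ki.2, 0)) e : ℕ) : ℤ) := by
  rw [Finsupp.weight_apply, Finsupp.weight_apply, Finsupp.sum, Finsupp.sum, Nat.cast_sum,
    Finset.mul_sum]
  refine Finset.sum_congr rfl fun a _ => ?_
  rw [wX_eq]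
  simp only [nsmul_eq_mul, smul_eq_mul]
  push_cast
  ring

theorem mem_WtP {n W : ℕ} {z : CobP p n} :
    z ∈ WtP p n W ↔ IsWtP p n (((p - 1 : ℕ) : ℤ) * (W : ℤ)) z := by
  have h1 : ((p - 1 : ℕ) : ℤ) ≠ 0 := by
    have := hp.out.two_le
    rw [Ne, Nat.cast_eq_zero]
    omega
  constructor
  · intro h e he
    rw [weight_wX, h he]
  · intro h e he
    have h2 := h he
    rw [weight_wX] at h2
    exact_mod_cast mul_left_cancel₀ h1 h2

theorem dP_mem_WtP {n W : ℕ} {z : CobP p n} (hz : z ∈ WtP p n W) : dP n z ∈ WtP p (n + 1) W :=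
  mem_WtP.2 (mem_WtP.1 hz).dP

theorem cupP_mem_WtP {a b V W : ℕ} {x : CobP p a} {y : CobP p b} (hx : x ∈ WtP p a V)
    (hy : y ∈ WtP p b W) : cupP x y ∈ WtP p (a + b) (V + W) := by
  rw [mem_WtP] at *
  have := hx.cupP hy
  rw [← mul_add, ← Nat.cast_add] at this
  exact this

theorem hP_mem_WtP (i j : ℕ) : hP p (i + 1) j ∈ WtP p 1 (wD p (i, j)) := by
  rw [mem_WtP]
  have h := isWtP_hP (p := p) (i + 1) j
  have h2 : ((p - 1 : ℕ) : ℤ) * (wD p (i, j) : ℤ) = ((p : ℤ) ^ (i + 1) - 1) * (p : ℤ) ^ j := by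
    rw [← Nat.cast_mul, wD_mul]
    simp only
    rw [Nat.cast_mul, Nat.cast_sub (Nat.one_le_pow _ _ hp.out.pos)]
    push_cast
    ring
  rw [h2]
  exact h

theorem bP_mem_WtP (i j : ℕ) : bP p (i + 1) j ∈ WtP p 2 (p * wD p (i, j)) := by
  rw [mem_WtP]
  have h := isWtP_bP (p := p) (i + 1) j
  have h2 : ((p - 1 : ℕ) : ℤ) * ((p * wD p (i, j) : ℕ) : ℤ) =
      (p : ℤ) * (((p : ℤ) ^ (i + 1) - 1) * (p : ℤ) ^ j) := by
    rw [← Nat.cast_mul, mul_left_comm, wD_mul]
    simp only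
    rw [Nat.cast_mul, Nat.cast_mul, Nat.cast_sub (Nat.one_le_pow _ _ hp.out.pos)]
    push_cast
    ring
  rw [h2]
  exact h

omit hp in
theorem wD_eq_wt (v : ℕ × ℕ) : wD p v = Vale.Agent.P257.H327.wt p v := rfl

end

end Vale.Agent.P257.H254

end
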