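import Vale.Agent.P257.H632.Iface
import Vale.Agent.P257.H941.Echelon
import Vale.Agent.P257.H254.Lin

/-! # P257 / H254 / PageP : the data of helper941's `Page` from (T0), (T1), (T2) -/

noncomputable section

namespace Vale.Agent.P257.H254

open Vale.Agent.P257.H93 Vale.Agent.P257.H134 Vale.Agent.P257.H632 Vale.Agent.P257.H941

variable {p : ℕ} [hp : Fact p.Prime]

/-- the monomials of degree `s` and weight `W` -/
def MonSW (p s W : ℕ) : Type := {r : EI (ℕ × ℕ) // degM r = s ∧ levM p (wD p) r = W}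

/-- the page in degree `s + 1`, weight `W`, for an admissible `μ` -/
theorem page {μ : ℕ × ℕ → ℕ} (hμ : IsMu p μ) (hp2 : 2 < p) (s W : ℕ)
    (h0 : ∀ n, Fil (p := p) μ n 0 = ⊥)
    (hex : ∀ (n : ℕ) (w : CobP p n), ∃ m, w ∈ Fil μ n m) :
    Page (ZMod p) (dL p s) (dL p (s + 1)) (WtP p s W) (WtP p (s + 1) W) (Fil μ (s + 1))
      (Fil μ (s + 2)) (fun r : MonSW p (s + 1) W => levM p μ r.1) (fun r => ThL p (s + 1) r.1)
      (fun r : MonSW p (s + 2) W => levM p μ r.1) (fun r => ThL p (s + 2) r.1) where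
  F_mono := Fil_mono μ _
  G_mono := Fil_mono μ _
  F_zero := h0 _
  exhaust w _ := hex _ w
  d0_mem x hx := dP_mem_WtP hx
  t0 n z hz τ hτ := Th_of_mem hz hτ
  t1 n w hw _ τ hτ := Th_dP hμ hw hτ
  t2 n w hw hwW hd hΘ := by
    obtain ⟨y, _, hyW, hy⟩ := exists_sub_mem hμ hp2 hw hwW hd fun r h1 h2 h3 => hΘ ⟨r, h1, h2⟩ h3
    exact ⟨y, hyW, hy⟩

end Vale.Agent.P257.H254

end
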