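import Vale.Agent.P257.H254.Words
import Vale.Agent.P257.H254.PageP
import Vale.Agent.P257.H254.Mu
import Vale.Agent.P257.H327.Enum6

/-! # P257 / H254 / Gamma : the group of degree `7` and weight `3p^2 + 4p` -/

noncomputable section

namespace Vale.Agent.P257.H254

open Vale.Agent.P257.H93 Vale.Agent.P257.H134 Vale.Agent.P257.H632 Vale.Agent.P257.H941

variable {p : ℕ} [hp : Fact p.Prime]

/-! ### coboundaries of words in the letters `h_{1j}, h_{2j}, b_{1j}, b_{2j}` -/

theorem dP_one : dP 0 (1 : CobP p 0) = 0 := by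
  rw [dP_apply, Finset.sum_range_succ, Finset.sum_range_one, map_one, map_one]
  simp

theorem dP_RH0 {n : ℕ} (j : ℕ) (z : CobP p n) :
    dP (n + 1) (RH (0, j) n z) = RH (0, j) (n + 1) (dP n z) := by
  rw [dP_RH, Finset.sum_range_zero, smul_zero, sub_zero]

theorem dP_RH1 {n : ℕ} (j : ℕ) (z : CobP p n) : dP (n + 1) (RH (1, j) n z) =
    RH (1, j) (n + 1) (dP n z) - ((-1 : ℤ) ^ n) •
      RH (0, j + 1) (n + 1) (RH (0, j) n z) := by
  rw [dP_RH, Finset.sum_range_one]

theorem dP_RB0 {n : ℕ} (j : ℕ) (z : CobP p n) : dP (n + 2) (RB (0, j) n z) =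
    (RB (0, j) (n + 1) (dP n z) : CobP p (n + 3)) := by
  rw [dP_RB 0 j z rfl, Finset.sum_range_zero, smul_zero, add_zero]
  exact castP_self rfl _

theorem dP_RB1 {n : ℕ} (j : ℕ) (z : CobP p n) : dP (n + 2) (RB (1, j) n z) =
    (RB (1, j) (n + 1) (dP n z) : CobP p (n + 3)) + ((-1 : ℤ) ^ n) •
      ((RH (0, j + 2) (n + 2) (RB (0, j) n z) : CobP p (n + 3)) -
        (RB (0, j + 1) (n + 1) (RH (0, j + 1) n z) : CobP p (n + 3))) := by
  have h := dP_RB 1 j z rfl
  rw [Finset.sum_range_one] at h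
  refine h.trans ?_
  have h1 := castP_self (p := p) (n := n + 3) rfl (RB (1, j) (n + 1) (dP n z) : CobP p (n + 3))
  have h2 := castP_self (p := p) (n := n + 3) rfl
    (RB (0, j + 1) (n + 1) (RH (0, j + 1) n z) : CobP p (n + 3))
  exact congrArg₂ _ h1 (congrArg _ (congrArg _ h2))


/-- `h11` -/
abbrev a1 : Lt := .h (0, 1)
/-- `h12` -/
abbrev a2 : Lt := .h (0, 2)
/-- `h21` -/
abbrev a3 : Lt := .h (1, 1)
/-- `b10` -/
abbrev c0 : Lt := .b (0, 0)
/-- `b11` -/
abbrev c1 : Lt := .b (0, 1)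
/-- `b20` -/
abbrev c2 : Lt := .b (1, 0)

theorem d_a1 : dP 1 (cv p 1 [a1] rfl) = 0 := by
  have h := dP_RH0 (p := p) (n := 0) 1 1
  rw [dP_one, map_zero] at h
  exact h

theorem d_a3 : dP 1 (cv p 1 [a3] rfl) = -(cv p 2 [a2, a1] rfl) := by
  have h := dP_RH1 (p := p) (n := 0) 1 1
  rw [dP_one, map_zero, pow_zero, one_smul, zero_sub] at h
  exact h

theorem d_a3a1 : dP 2 (cv p 2 [a3, a1] rfl) = (cv p 3 [a2, a1, a1] rfl) := by
  have h := dP_RH1 (p := p) (n := 1) 1 (cv p 1 [a1] rfl)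
  rw [d_a1, map_zero, pow_one, neg_smul, one_smul, zero_sub, neg_neg] at h
  exact h

/-- the general step for the letter `b20` in odd degree -/
theorem d_c2 {n : ℕ} (hn : Odd n) (z : CobP p n) : dP (n + 2) (RB (1, 0) n z) =
    (RB (1, 0) (n + 1) (dP n z) : CobP p (n + 3)) -
      (RH (0, 2) (n + 2) (RB (0, 0) n z) : CobP p (n + 3)) +
        (RB (0, 1) (n + 1) (RH (0, 1) n z) : CobP p (n + 3)) := by
  rw [dP_RB1, hn.neg_one_pow, neg_one_smul, neg_sub]
  abel

theorem d_c2' {n : ℕ} (hn : Even n) (z : CobP p n) : dP (n + 2) (RB (1, 0) n z) =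
    (RB (1, 0) (n + 1) (dP n z) : CobP p (n + 3)) +
      (RH (0, 2) (n + 2) (RB (0, 0) n z) : CobP p (n + 3)) -
        (RB (0, 1) (n + 1) (RH (0, 1) n z) : CobP p (n + 3)) := by
  rw [dP_RB1, hn.neg_one_pow, one_smul, ← add_sub_assoc]

theorem d_w1a : dP 3 (cv p 3 [c2, a1] rfl) =
    -(cv p 4 [a2, c0, a1] rfl) + (cv p 4 [c1, a1, a1] rfl) := by
  have h := d_c2 (p := p) (n := 1) odd_one (cv p 1 [a1] rfl)
  rw [d_a1, map_zero, zero_sub] at h
  exact h

theorem d_w1b : dP 5 (cv p 5 [c2, c2, a1] rfl) =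
    -(cv p 6 [c2, a2, c0, a1] rfl) + (cv p 6 [c2, c1, a1, a1] rfl)
      - (cv p 6 [a2, c0, c2, a1] rfl) + (cv p 6 [c1, a1, c2, a1] rfl) := by
  have h := d_c2 (p := p) (n := 3) (by decide) (cv p 3 [c2, a1] rfl)
  rw [d_w1a, map_add, map_neg] at h
  exact h

theorem d_w1 : dP 7 (cv p 7 [c2, c2, c2, a1] rfl) =
    -(cv p 8 [c2, c2, a2, c0, a1] rfl) + (cv p 8 [c2, c2, c1, a1, a1] rfl)
      - (cv p 8 [c2, a2, c0, c2, a1] rfl) + (cv p 8 [c2, c1, a1, c2, a1] rfl)
      - (cv p 8 [a2, c0, c2, c2, a1] rfl) + (cv p 8 [c1, a1, c2, c2, a1] rfl) := by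
  have h := d_c2 (p := p) (n := 5) (by decide) (cv p 5 [c2, c2, a1] rfl)
  rw [d_w1b, map_add, map_sub, map_add, map_neg] at h
  exact h

theorem d_w2a : dP 3 (cv p 3 [c2, a3] rfl) =
    -(cv p 4 [c2, a2, a1] rfl) - (cv p 4 [a2, c0, a3] rfl)
      + (cv p 4 [c1, a1, a3] rfl) := by
  have h := d_c2 (p := p) (n := 1) odd_one (cv p 1 [a3] rfl)
  rw [d_a3, map_neg] at h
  exact h

theorem d_w2b : dP 5 (cv p 5 [c2, c2, a3] rfl) =
    -(cv p 6 [c2, c2, a2, a1] rfl) - (cv p 6 [c2, a2, c0, a3] rfl)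
      + (cv p 6 [c2, c1, a1, a3] rfl)
      - (cv p 6 [a2, c0, c2, a3] rfl) + (cv p 6 [c1, a1, c2, a3] rfl) := by
  have h := d_c2 (p := p) (n := 3) (by decide) (cv p 3 [c2, a3] rfl)
  rw [d_w2a, map_add, map_sub, map_neg] at h
  exact h

theorem d_w2 : dP 7 (cv p 7 [c0, c2, c2, a3] rfl) =
    -(cv p 8 [c0, c2, c2, a2, a1] rfl) - (cv p 8 [c0, c2, a2, c0, a3] rfl)
      + (cv p 8 [c0, c2, c1, a1, a3] rfl)
      - (cv p 8 [c0, a2, c0, c2, a3] rfl) + (cv p 8 [c0, c1, a1, c2, a3] rfl) := by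
  have h := dP_RB0 (p := p) (n := 5) 0 (cv p 5 [c2, c2, a3] rfl)
  rw [d_w2b, map_add, map_sub, map_add, map_sub, map_neg] at h
  exact h

theorem d_w3a : dP 4 (cv p 4 [c2, a3, a1] rfl) =
    (cv p 5 [c2, a2, a1, a1] rfl) + (cv p 5 [a2, c0, a3, a1] rfl)
      - (cv p 5 [c1, a1, a3, a1] rfl) := by
  have h := d_c2' (p := p) (n := 2) (by decide) (cv p 2 [a3, a1] rfl)
  rw [d_a3a1] at h
  exact h

theorem d_w3 : dP 6 (cv p 6 [c2, c2, a3, a1] rfl) =
    (cv p 7 [c2, c2, a2, a1, a1] rfl) + (cv p 7 [c2, a2, c0, a3, a1] rfl)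
      - (cv p 7 [c2, c1, a1, a3, a1] rfl)
      + (cv p 7 [a2, c0, c2, a3, a1] rfl) - (cv p 7 [c1, a1, c2, a3, a1] rfl) := by
  have h := d_c2' (p := p) (n := 4) (by decide) (cv p 4 [c2, a3, a1] rfl)
  rw [d_w3a, map_sub, map_add] at h
  exact h

/-! ### the weight `muG` -/

omit hp in
theorem isMu_muG (hp3 : 3 ≤ p) : IsMu p (muG p) where
  split i j a ha := by
    have h := muG_add_lt hp3 a (i - (a + 1)) j
    rw [show a + (i - (a + 1)) + 1 = i by omega, add_assoc] at h
    exact h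
  frob i j := muG_carry hp3 i j

omit hp in
theorem muG_a1 : muG p (0, 1) = 1 := by simp [muG]
omit hp in
theorem muG_a2 (hp3 : 3 ≤ p) : muG p (0, 2) = p - 1 := by simp [muG]; omega
omit hp in
theorem muG_a3 (hp3 : 3 ≤ p) : muG p (1, 1) = 3 * p - 1 := by simp [muG]; omega
omit hp in
theorem muG_c0 : muG p (0, 0) = 1 := by simp [muG]
omit hp in
theorem muG_c2 : muG p (1, 0) = 3 := by simp [muG]

omit hp in
theorem wD_a1 : wD p (0, 1) = p := by simp [wD]
omit hp in
theorem wD_a2 : wD p (0, 2) = p ^ 2 := by simp [wD]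
omit hp in
theorem wD_a3 : wD p (1, 1) = p + p ^ 2 := by simp [wD, Finset.sum_range_succ]
omit hp in
theorem wD_c0 : wD p (0, 0) = 1 := by simp [wD]
omit hp in
theorem wD_c2 : wD p (1, 0) = 1 + p := by simp [wD, Finset.sum_range_succ]

/-- leading word of the first cochain -/
abbrev wA : List Lt := [c2, c2, c2, a1]
/-- leading word of the second cochain -/
abbrev wB : List Lt := [c0, c2, c2, a3]
/-- a word of the third monomial -/
abbrev wC : List Lt := [c2, a2, c0, a3, a1]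
/-- the third monomial is hit from here -/
abbrev wE : List Lt := [c2, c2, a3, a1]

omit hp in
theorem lev_wA : lw p (muG p) wA = 9 * p + 1 := by
  simp only [lw, muG_c2, muG_a1]; omega
omit hp in
theorem lev_wB (hp3 : 3 ≤ p) : lw p (muG p) wB = 10 * p - 1 := by
  simp only [lw, muG_c2, muG_c0, muG_a3 hp3]; omega
omit hp in
theorem lev_wC (hp3 : 3 ≤ p) : lw p (muG p) wC = 8 * p - 1 := by
  simp only [lw, muG_c2, muG_c0, muG_a3 hp3, muG_a2 hp3, muG_a1]; omega

omit hp in
theorem enumG (hp11 : 11 ≤ p) (r : MonSW p 7 (3 * p ^ 2 + 4 * p)) :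
    r.1 = (hs wA, bs wA) ∨ r.1 = (hs wB, bs wB) ∨ r.1 = (hs wC, bs wC) := by
  obtain ⟨⟨S, β⟩, h1, h2⟩ := r
  have h3 := H327.enum_gamma p 0 hp11 (by nlinarith) ⟨S, β⟩ (by exact h1)
    (by rw [mul_zero, add_zero]; exact h2)
  simp only [zero_add] at h3
  have e : ∀ (h : Finset (ℕ × ℕ)) (x0 x1 x2 y0 y1 z : ℕ),
      (⟨S, β⟩ : H327.Mon) = H327.Mon.mk4 h x0 x1 x2 y0 y1 z →
      S = h ∧ β = Finsupp.single (0, 0) x0 + Finsupp.single (0, 1) x1 + Finsupp.single (0, 2) x2 +
        Finsupp.single (1, 0) y0 + Finsupp.single (1, 1) y1 + Finsupp.single (2, 0) z := by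
    intro h x0 x1 x2 y0 y1 z he
    exact ⟨congrArg H327.Mon.h he, congrArg H327.Mon.b he⟩
  rcases h3 with h | h | h
  · obtain ⟨hS, hβ⟩ := e _ _ _ _ _ _ _ h
    left
    refine Prod.ext ?_ ?_
    · change S = _
      rw [hS]; decide
    · change β = _
      rw [hβ]
      ext v
      simp only [bs, Finsupp.add_apply, Finsupp.single_apply, Finsupp.coe_zero, Pi.zero_apply]
      split_ifs <;> omega
  · obtain ⟨hS, hβ⟩ := e _ _ _ _ _ _ _ h
    right; left
    refine Prod.ext ?_ ?_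
    · change S = _
      rw [hS]; decide
    · change β = _
      rw [hβ]
      ext v
      simp only [bs, Finsupp.add_apply, Finsupp.single_apply, Finsupp.coe_zero, Pi.zero_apply]
      split_ifs <;> omega
  · obtain ⟨hS, hβ⟩ := e _ _ _ _ _ _ _ h
    right; right
    refine Prod.ext ?_ ?_
    · change S = _
      rw [hS]; decide
    · change β = _
      rw [hβ]
      ext v
      simp only [bs, Finsupp.add_apply, Finsupp.single_apply, Finsupp.coe_zero, Pi.zero_apply]
      split_ifs <;> omega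

/-! ### coboundaries: levels and leading monomials -/

theorem dA_mem (hp3 : 3 ≤ p) : dP 7 (cv p 7 wA rfl) ∈ Fil (muG p) 8 (8 * p + 1) := by
  have hμ := isMu_muG hp3
  rw [d_w1]
  refine Submodule.add_mem _ (Submodule.sub_mem _ (Submodule.add_mem _ (Submodule.sub_mem _
    (Submodule.add_mem _ (Submodule.neg_mem _ ?_) ?_) ?_) ?_) ?_) ?_ <;>
  · apply cv_mem_le hμ
    simp only [lw, muG_c2, muG_c0, muG_a3 hp3, muG_a2 hp3, muG_a1]
    omega

theorem dB_mem (hp3 : 3 ≤ p) : dP 7 (cv p 7 wB rfl) ∈ Fil (muG p) 8 (9 * p - 2 + 1) := by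
  have hμ := isMu_muG hp3
  rw [d_w2]
  refine Submodule.add_mem _ (Submodule.sub_mem _ (Submodule.add_mem _ (Submodule.sub_mem _
    (Submodule.neg_mem _ ?_) ?_) ?_) ?_) ?_ <;>
  · apply cv_mem_le hμ
    simp only [lw, muG_c2, muG_c0, muG_a3 hp3, muG_a2 hp3, muG_a1]
    omega

theorem dE_mem (hp3 : 3 ≤ p) : dP 6 (cv p 6 wE rfl) ∈ Fil (muG p) 7 (8 * p - 1 + 1) := by
  have hμ := isMu_muG hp3
  rw [d_w3]
  refine Submodule.sub_mem _ (Submodule.add_mem _ (Submodule.sub_mem _ (Submodule.add_mem _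
    ?_ ?_) ?_) ?_) ?_ <;>
  · apply cv_mem_le hμ
    simp only [lw, muG_c2, muG_c0, muG_a3 hp3, muG_a2 hp3, muG_a1]
    omega

/-- leading word of the first coboundary -/
abbrev wA' : List Lt := [c2, c2, a2, c0, a1]
/-- leading word of the second coboundary -/
abbrev wB' : List Lt := [c0, c2, a2, c0, a3]

theorem Th_dA (hp3 : 3 ≤ p) : Th 8 (hs wA', bs wA') (dP 7 (cv p 7 wA rfl)) =
    -(3 * (sn wA' : ZMod p)) := by
  have hμ := isMu_muG hp3
  have h0 : sn wA' ≠ 0 := by decide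
  rw [d_w1, Th_add, Th_sub, Th_add, Th_sub, Th_add, Th_neg,
    Th_cv_self (n := 8) hμ hp3 _ wA' rfl h0 rfl rfl rfl,
    Th_cv_self (n := 8) hμ hp3 [c2, a2, c0, c2, a1] wA' rfl h0 rfl (by simp only [bs]; abel)
      (by simp only [lw]; ring),
    Th_cv_self (n := 8) hμ hp3 [a2, c0, c2, c2, a1] wA' rfl h0 rfl (by simp only [bs]; abel)
      (by simp only [lw]; ring)]
  have hl : levM p (muG p) (hs wA', bs wA') = 8 * p := by
    rw [levM_word _ h0]
    simp only [lw, muG_c2, muG_c0, muG_a2 hp3, muG_a1]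
    omega
  rw [Th_cv_zero (n := 8) hμ hp3 [c2, c2, c1, a1, a1] rfl _ (by
      rw [hl]; simp only [lw, muG_c2, muG_a1]; omega) (by decide),
    Th_cv_zero (n := 8) hμ hp3 [c2, c1, a1, c2, a1] rfl _ (by
      rw [hl]; simp only [lw, muG_c2, muG_a1]; omega) (by decide),
    Th_cv_zero (n := 8) hμ hp3 [c1, a1, c2, c2, a1] rfl _ (by
      rw [hl]; simp only [lw, muG_c2, muG_a1]; omega) (by decide)]
  have e1 : sn [c2, a2, c0, c2, a1] = sn wA' := by decide
  have e2 : sn [a2, c0, c2, c2, a1] = sn wA' := by decide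
  rw [e1, e2]
  ring

theorem Th_dB (hp3 : 3 ≤ p) : Th 8 (hs wB', bs wB') (dP 7 (cv p 7 wB rfl)) =
    -(2 * (sn wB' : ZMod p)) := by
  have hμ := isMu_muG hp3
  have h0 : sn wB' ≠ 0 := by decide
  have hl : levM p (muG p) (hs wB', bs wB') = 9 * p - 2 := by
    rw [levM_word _ h0]
    simp only [lw, muG_c2, muG_c0, muG_a2 hp3, muG_a3 hp3]
    omega
  rw [d_w2, Th_add, Th_sub, Th_add, Th_sub, Th_neg,
    Th_cv_self (n := 8) hμ hp3 _ wB' rfl h0 rfl rfl rfl,
    Th_cv_self (n := 8) hμ hp3 [c0, a2, c0, c2, a3] wB' rfl h0 rfl (by simp only [bs]; abel)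
      (by simp only [lw]; ring)]
  rw [Th_cv (n := 8) hμ hp3 [c0, c2, c2, a2, a1] rfl _ (by
      rw [hl]; simp only [lw, muG_c2, muG_c0, muG_a2 hp3, muG_a1]; omega),
    Th_cv (n := 8) hμ hp3 [c0, c2, c1, a1, a3] rfl _ (by
      rw [hl]; simp only [lw, muG_c2, muG_c0, muG_a3 hp3, muG_a1]; omega),
    Th_cv (n := 8) hμ hp3 [c0, c1, a1, c2, a3] rfl _ (by
      rw [hl]; simp only [lw, muG_c2, muG_c0, muG_a3 hp3, muG_a1]; omega)]
  have n1 : ((hs wB', bs wB') : EI (ℕ × ℕ)) ≠ (hs [c0, c2, c2, a2, a1], bs [c0, c2, c2, a2, a1]) :=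
    fun h => absurd (congrArg Prod.fst h) (by decide)
  have n2 : ((hs wB', bs wB') : EI (ℕ × ℕ)) ≠ (hs [c0, c2, c1, a1, a3], bs [c0, c2, c1, a1, a3]) :=
    fun h => absurd (congrArg Prod.fst h) (by decide)
  have n3 : ((hs wB', bs wB') : EI (ℕ × ℕ)) ≠ (hs [c0, c1, a1, c2, a3], bs [c0, c1, a1, c2, a3]) :=
    fun h => absurd (congrArg Prod.fst h) (by decide)
  rw [if_neg n1, if_neg n2, if_neg n3]
  have e1 : sn [c0, a2, c0, c2, a3] = sn wB' := by decide
  rw [e1]
  ring

theorem Th_dE (hp3 : 3 ≤ p) : Th 7 (hs wC, bs wC) (dP 6 (cv p 6 wE rfl)) =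
    2 * (sn wC : ZMod p) := by
  have hμ := isMu_muG hp3
  have h0 : sn wC ≠ 0 := by decide
  have hl : levM p (muG p) (hs wC, bs wC) = 8 * p - 1 := by rw [levM_word _ h0, lev_wC hp3]
  rw [d_w3, Th_sub, Th_add, Th_sub, Th_add,
    Th_cv_self (n := 7) hμ hp3 _ wC rfl h0 rfl rfl rfl,
    Th_cv_self (n := 7) hμ hp3 [a2, c0, c2, a3, a1] wC rfl h0 rfl (by simp only [bs]; abel)
      (by simp only [lw]; ring)]
  rw [Th_cv_zero (n := 7) hμ hp3 [c2, c2, a2, a1, a1] rfl _ (by
      rw [hl]; simp only [lw, muG_c2, muG_a1, muG_a2 hp3]; omega) (by decide),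
    Th_cv_zero (n := 7) hμ hp3 [c2, c1, a1, a3, a1] rfl _ (by
      rw [hl]; simp only [lw, muG_c2, muG_a1, muG_a3 hp3]; omega) (by decide),
    Th_cv_zero (n := 7) hμ hp3 [c1, a1, c2, a3, a1] rfl _ (by
      rw [hl]; simp only [lw, muG_c2, muG_a1, muG_a3 hp3]; omega) (by decide)]
  have e1 : sn [a2, c0, c2, a3, a1] = sn wC := by decide
  rw [e1]
  ring

/-! ### the theorem -/

theorem sn_wA : sn wA = 1 := by decide
theorem sn_wB : sn wB = 1 := by decide
theorem sn_sq (w : List Lt) (h : sn w ≠ 0) : sn w * sn w = 1 := by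
  induction w with
  | nil => rfl
  | cons a w ih =>
    cases a with
    | h v =>
      simp only [sn] at h ⊢
      split_ifs at h ⊢ with hv
      · exact absurd rfl h
      · have h1 := ih (right_ne_zero_of_mul h)
        calc sg v (hs w) * sn w * (sg v (hs w) * sn w) =
            (sg v (hs w) * sg v (hs w)) * (sn w * sn w) := by ring
          _ = 1 := by rw [h1, sg_mul_self, one_mul]
    | b v => exact ih h

theorem sn_cast_ne (w : List Lt) (h : sn w ≠ 0) : (sn w : ZMod p) ≠ 0 := by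
  intro h0
  have h1 := congrArg (fun z : ℤ => (z : ZMod p)) (sn_sq w h)
  simp only [Int.cast_mul, Int.cast_one, h0, mul_zero] at h1
  exact zero_ne_one h1

theorem natCast_ne {k : ℕ} (h0 : 0 < k) (hk : k < p) : (k : ZMod p) ≠ 0 := by
  intro h
  rw [ZMod.natCast_eq_zero_iff] at h
  exact absurd (Nat.le_of_dvd h0 h) (by omega)

/-- `H^7` of the cobar complex of `P` vanishes in weight `3p^2 + 4p`. -/
theorem gamma_CobP (hp11 : 11 ≤ p) {z : CobP p 7} (hz : z ∈ WtP p 7 (3 * p ^ 2 + 4 * p))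
    (hd : dP 7 z = 0) : ∃ x ∈ WtP p 6 (3 * p ^ 2 + 4 * p), z = dP 6 x := by
  have hp3 : 3 ≤ p := by omega
  have hμ := isMu_muG hp3
  have two_ne : (2 : ZMod p) ≠ 0 := by
    have := natCast_ne (p := p) two_pos (by omega)
    simpa using this
  have three_ne : (3 : ZMod p) ≠ 0 := by
    have := natCast_ne (p := p) (k := 3) (by norm_num) (by omega)
    simpa using this
  have lA : levM p (muG p) (hs wA, bs wA) = 9 * p + 1 := by
    rw [levM_word _ (by decide), lev_wA]
  have lB : levM p (muG p) (hs wB, bs wB) = 10 * p - 1 := by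
    rw [levM_word _ (by decide), lev_wB hp3]
  have lC : levM p (muG p) (hs wC, bs wC) = 8 * p - 1 := by
    rw [levM_word _ (by decide), lev_wC hp3]
  have lA' : levM p (muG p) (hs wA', bs wA') = 8 * p := by
    rw [levM_word _ (by decide)]
    simp only [lw, muG_c2, muG_c0, muG_a2 hp3, muG_a1]
    omega
  have lB' : levM p (muG p) (hs wB', bs wB') = 9 * p - 2 := by
    rw [levM_word _ (by decide)]
    simp only [lw, muG_c2, muG_c0, muG_a2 hp3, muG_a3 hp3]
    omega
  have P := page hμ hp3 6 (3 * p ^ 2 + 4 * p) (fun n => Fil_zero_eq n)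
    (fun n w => exists_mem_Fil n w)
  let U : Bool → CobP p 7 := fun b => if b then cv p 7 wA rfl else cv p 7 wB rfl
  let u : Bool → ℕ := fun b => if b then 9 * p + 1 else 10 * p - 1
  let l : Bool → ℕ := fun b => if b then 8 * p else 9 * p - 2
  have UA : U true = cv p 7 wA rfl := rfl
  have UB : U false = cv p 7 wB rfl := rfl
  have TA : Th 7 (hs wA, bs wA) (cv p 7 wA rfl) = 1 := by
    rw [Th_cv_self (n := 7) hμ hp3 wA wA rfl (by decide) rfl rfl rfl, sn_wA, Int.cast_one]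
  have TB : Th 7 (hs wB, bs wB) (cv p 7 wB rfl) = 1 := by
    rw [Th_cv_self (n := 7) hμ hp3 wB wB rfl (by decide) rfl rfl rfl, sn_wB, Int.cast_one]
  have hE := dE_mem (p := p) hp3
  have hEW : cv p 6 wE rfl ∈ WtP p 6 (3 * p ^ 2 + 4 * p) := by
    apply cv_mem_WtP
    simp only [lw, wD_c2, wD_a1, wD_a3]
    ring
  refine P.echelon (dL_dL 6) U u l ?_ ?_ ?_ ?_ ?_ ?_ z hz hd
  · -- weights
    rintro (_ | _)
    · refine cv_mem_WtP (n := 7) wB rfl ?_
      simp only [lw, wD_c2, wD_c0, wD_a3]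
      ring
    · refine cv_mem_WtP (n := 7) wA rfl ?_
      simp only [lw, wD_c2, wD_a1]
      ring
  · -- levels
    rintro (_ | _)
    · refine cv_mem_le (n := 7) hμ wB rfl ?_
      rw [lev_wB hp3]
      exact Nat.lt_succ_self _
    · refine cv_mem_le (n := 7) hμ wA rfl ?_
      rw [lev_wA]
      exact Nat.lt_succ_self _
  · rintro (_ | _)
    · exact dB_mem hp3
    · exact dA_mem hp3
  · rintro (_ | _)
    · change 9 * p - 2 < 10 * p - 1
      omega
    · change 8 * p < 9 * p + 1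
      omega
  · -- span
    intro n w _ _ _
    by_cases h1 : n = 9 * p + 1
    · refine ⟨fun b => if b then Th 7 (hs wA, bs wA) w else 0, ?_, 0, Submodule.zero_mem _, ?_, ?_⟩
      · rintro (_ | _) h
        · exact absurd rfl h
        · exact h1.symm
      · rw [map_zero]
        exact Submodule.zero_mem _
      · rintro r hr
        rcases enumG hp11 r with h | h | h
        · rw [map_zero, map_zero, add_zero, Fintype.sum_bool, ThL_apply, ThL_apply, ThL_apply, h,
            UA, TA]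
          simp
        · rw [h, lB] at hr
          omega
        · rw [h, lC] at hr
          omega
    by_cases h2 : n = 10 * p - 1
    · refine ⟨fun b => if b then 0 else Th 7 (hs wB, bs wB) w, ?_, 0, Submodule.zero_mem _, ?_, ?_⟩
      · rintro (_ | _) h
        · exact h2.symm
        · exact absurd rfl h
      · rw [map_zero]
        exact Submodule.zero_mem _
      · rintro r hr
        rcases enumG hp11 r with h | h | h
        · rw [h, lA] at hr
          omega
        · rw [map_zero, map_zero, add_zero, Fintype.sum_bool, ThL_apply, ThL_apply, ThL_apply, h,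
            UB, TB]
          simp
        · rw [h, lC] at hr
          omega
    by_cases h3 : n = 8 * p - 1
    · refine ⟨0, fun b h => absurd rfl h,
        (Th 7 (hs wC, bs wC) w * (2 * (sn wC : ZMod p))⁻¹) • cv p 6 wE rfl,
        Submodule.smul_mem _ _ hEW, ?_, ?_⟩
      · rw [map_smul, dL_apply, h3]
        exact Submodule.smul_mem _ _ hE
      · rintro r hr
        rcases enumG hp11 r with h | h | h
        · rw [h, lA] at hr
          omega
        · rw [h, lB] at hr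
          omega
        · rw [map_smul, map_smul, dL_apply, ThL_apply, ThL_apply, h, Th_dE hp3, smul_eq_mul,
            inv_mul_cancel_right₀ (mul_ne_zero two_ne (sn_cast_ne _ (by decide)))]
          simp
    · refine ⟨0, fun b h => absurd rfl h, 0, Submodule.zero_mem _, ?_, ?_⟩
      · rw [map_zero]
        exact Submodule.zero_mem _
      · rintro r hr
        rcases enumG hp11 r with h | h | h
        · rw [h, lA] at hr
          omega
        · rw [h, lB] at hr
          omega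
        · rw [h, lC] at hr
          omega
  · -- injectivity
    intro L c hc h
    funext b
    by_contra hb
    have hL := hc b hb
    rcases b with _ | _
    · have hL' : 9 * p - 2 = L := hL
      have hc1 : c true = 0 := by
        by_contra h1
        have : 8 * p = L := hc true h1
        omega
      have h2 := h ⟨(hs wB', bs wB'), by rw [degM_word _ (by decide)]; rfl, by
        rw [levM_word _ (by decide)]
        simp only [lw, wD_c2, wD_c0, wD_a2, wD_a3]
        ring⟩ (by simp only; rw [lB', hL'])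
      rw [Fintype.sum_bool, hc1, zero_mul, zero_add, ThL_apply, dL_apply, UB, Th_dB hp3,
        mul_neg, neg_eq_zero] at h2
      rcases mul_eq_zero.1 h2 with h3 | h3
      · exact hb h3
      · exact mul_ne_zero two_ne (sn_cast_ne _ (by decide)) h3
    · have hL' : 8 * p = L := hL
      have hc1 : c false = 0 := by
        by_contra h1
        have : 9 * p - 2 = L := hc false h1
        omega
      have h2 := h ⟨(hs wA', bs wA'), by rw [degM_word _ (by decide)]; rfl, by
        rw [levM_word _ (by decide)]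
        simp only [lw, wD_c2, wD_c0, wD_a2, wD_a1]
        ring⟩ (by simp only; rw [lA', hL'])
      rw [Fintype.sum_bool, hc1, zero_mul, add_zero, ThL_apply, dL_apply, UA, Th_dA hp3,
        mul_neg, neg_eq_zero] at h2
      rcases mul_eq_zero.1 h2 with h3 | h3
      · exact hb h3
      · exact mul_ne_zero three_ne (sn_cast_ne _ (by decide)) h3

end Vale.Agent.P257.H254

end
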