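import Vale.Agent.P257.H254.Gamma
import Vale.Agent.P257.H545.VanP

/-! # P257 / H254 / GammaP : the group `γ`, in the form of `H545.FactsP` -/

namespace Vale.Agent.P257.H254

open Vale.Agent.P257.H93 Vale.Agent.P257.H134 Vale.Agent.P257.H632

variable {p : ℕ} [hp : Fact p.Prime]

/-- from `WtP` to `VanP` -/
theorem vanP_of {s W : ℕ} (h : ∀ z ∈ WtP p (s + 1) W, dP (s + 1) z = 0 →
    ∃ x ∈ WtP p s W, z = dP s x) : H545.VanP p (s + 1) (((p : ℤ) - 1) * (W : ℤ)) := by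
  have h1 : ((p - 1 : ℕ) : ℤ) = (p : ℤ) - 1 := by
    rw [Nat.cast_sub hp.out.one_le, Nat.cast_one]
  rw [← h1]
  intro c hc hd
  obtain ⟨x, hx, hx'⟩ := h c (mem_WtP.2 hc) hd
  exact ⟨x, mem_WtP.1 hx, hx'.symm⟩

/-- `H^7(CobP)_{(p - 1)(3p^2 + 4p)} = 0` for `p ≥ 11` -/
theorem gammaP (hp11 : 11 ≤ p) : H545.VanP p 7 (((p : ℤ) - 1) * (3 * p ^ 2 + 4 * p)) := by
  have h := vanP_of (p := p) (s := 6) (W := 3 * p ^ 2 + 4 * p)
    fun z hz hd => gamma_CobP hp11 hz hd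
  push_cast at h
  exact h

end Vale.Agent.P257.H254
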