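import Vale.Agent.P257.H254.RMul
import Vale.Agent.P257.H632.Iface
import Vale.Agent.P257.H134.BSym

/-! # P257 / H254 / IsBb : the leading symbol of `b_v` (helper134) -/

noncomputable section

namespace Vale.Agent.P257.H254

open Vale.Agent.P257.H93 Vale.Agent.P257.H134 Vale.Agent.P257.H632

variable {p : ℕ} [hp : Fact p.Prime] {μ : ℕ × ℕ → ℕ}

theorem isB_bm (hμ : IsMu p μ) (v : ℕ × ℕ) : IsB μ v (bm p v) :=
  ⟨neg_bP_mem hμ v.1 v.2, fun _ hl => symb_neg_bP hμ v.1 v.2 hl⟩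

end Vale.Agent.P257.H254

end
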