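import Vale.Agent.P257.H254.Lin

/-! # P257 / H254 / RMul : right multiplication by `h_v` and `b_v`, with coboundaries -/

noncomputable section

namespace Vale.Agent.P257.H254

open Vale.Agent.P257.H93 Vale.Agent.P257.H134 Vale.Agent.P257.H632 Finset

variable {p : ℕ} {n m : ℕ}

/-! ### casts -/

theorem castP_self (h : n = n) (x : CobP p n) : castP h x = x := by
  have : (fun ki : Fin n × ℕ => (Fin.cast h ki.1, ki.2)) = id := by
    funext ki
    rfl
  change MvPolynomial.rename (fun ki : Fin n × ℕ => (Fin.cast h ki.1, ki.2)) x = x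
  rw [this, MvPolynomial.rename_id, AlgHom.id_apply]

theorem cupP_zsmul {a b : ℕ} (k : ℤ) (x : CobP p a) (y : CobP p b) :
    cupP x (k • y) = k • cupP x y := by
  simp only [cupP, map_zsmul, mul_smul_comm]

theorem zsmul_cupP {a b : ℕ} (k : ℤ) (x : CobP p a) (y : CobP p b) :
    cupP (k • x) y = k • cupP x y := by
  simp only [cupP, map_zsmul, smul_mul_assoc]

theorem cupP_smul {a b : ℕ} (k : ZMod p) (x : CobP p a) (y : CobP p b) :
    cupP x (k • y) = k • cupP x y := by
  simp only [cupP, map_smul, mul_smul_comm]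

theorem smul_cupP {a b : ℕ} (k : ZMod p) (x : CobP p a) (y : CobP p b) :
    cupP (k • x) y = k • cupP x y := by
  simp only [cupP, map_smul, smul_mul_assoc]

theorem cupP_neg {a b : ℕ} (x : CobP p a) (y : CobP p b) : cupP x (-y) = -cupP x y := by
  simp only [cupP, map_neg, mul_neg]

theorem neg_cupP {a b : ℕ} (x : CobP p a) (y : CobP p b) : cupP (-x) y = -cupP x y := by
  simp only [cupP, map_neg, neg_mul]

theorem cupP_sub {a b : ℕ} (x : CobP p a) (y y' : CobP p b) :
    cupP x (y - y') = cupP x y - cupP x y' := by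
  simp only [cupP, map_sub, mul_sub]

theorem cupP_sum {a b : ℕ} {ι : Type*} (s : Finset ι) (x : CobP p a) (y : ι → CobP p b) :
    cupP x (∑ i ∈ s, y i) = ∑ i ∈ s, cupP x (y i) := by
  simp only [cupP, map_sum, mul_sum]

section

variable [hp : Fact p.Prime]

/-- right multiplication by a cochain -/
def RM {b : ℕ} (y : CobP p b) (n : ℕ) : CobP p n →ₗ[ZMod p] CobP p (n + b) where
  toFun z := cupP z y
  map_add' x x' := add_cupP x x' y
  map_smul' c x := smul_cupP c x y

theorem RM_apply {b : ℕ} (y : CobP p b) (n : ℕ) (z : CobP p n) : RM y n z = cupP z y := rfl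

/-- `b_v` with the sign that makes its symbol `1` -/
def bm (p : ℕ) [Fact p.Prime] (v : ℕ × ℕ) : CobP p 2 := -bP p (v.1 + 1) v.2

/-- right multiplication by `h_v` -/
def RH (v : ℕ × ℕ) (n : ℕ) : CobP p n →ₗ[ZMod p] CobP p (n + 1) := RM (hP p (v.1 + 1) v.2) n

/-- right multiplication by `b_v` -/
def RB (v : ℕ × ℕ) (n : ℕ) : CobP p n →ₗ[ZMod p] CobP p (n + 2) := RM (bm p v) n

theorem RH_apply (v : ℕ × ℕ) (z : CobP p n) : RH v n z = cupP z (hP p (v.1 + 1) v.2) := rfl

theorem RB_apply (v : ℕ × ℕ) (z : CobP p n) : RB v n z = cupP z (bm p v) := rfl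

theorem sum_Ioo_succ {M : Type*} [AddCommMonoid M] (i : ℕ) (f : ℕ → M) :
    ∑ a ∈ Ioo 0 (i + 1), f a = ∑ a ∈ range i, f (a + 1) := by
  rw [show Ioo 0 (i + 1) = Ico (0 + 1) (i + 1) from rfl, ← Finset.sum_Ico_add' f 0 i 1,
    range_eq_Ico]

theorem dP_bm (i j : ℕ) : dP 2 (bm p (i, j)) = ∑ a ∈ range i,
    (cupP (bm p (a, j)) (hP p (i - (a + 1) + 1) (j + a + 2)) -
      cupP (hP p (a + 1) (j + 1)) (bm p (i - (a + 1), j + a + 1))) := by
  rw [bm, map_neg, dP_bP (i + 1) j i.succ_pos, sum_Ioo_succ i, ← sum_neg_distrib]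
  refine sum_congr rfl fun a ha => ?_
  rw [mem_range] at ha
  have h1 : i + 1 - (a + 1) = i - (a + 1) + 1 := by omega
  rw [bm, bm, neg_cupP, cupP_neg]
  simp only
  rw [h1, show a + 1 + j + 1 = j + a + 2 by omega, show a + 1 + j = j + a + 1 by omega]
  abel

theorem dP_hh (i j : ℕ) : dP 1 (hP p (i + 1) j) = - ∑ a ∈ range i,
    cupP (hP p (a + 1) j) (hP p (i - (a + 1) + 1) (j + a + 1)) := by
  rw [dP_hP (i + 1) j i.succ_pos, sum_Ioo_succ i]
  refine congrArg _ (sum_congr rfl fun a ha => ?_)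
  rw [mem_range] at ha
  rw [show i + 1 - (a + 1) = i - (a + 1) + 1 by omega, show a + 1 + j = j + a + 1 by omega]

/-- the Leibniz rule for right multiplication, degree one -/
theorem dP_RM1 (y : CobP p 1) (z : CobP p n) : dP (n + 1) (cupP z y) =
    cupP (dP n z) y + ((-1 : ℤ) ^ n) • (cupP z (dP 1 y) : CobP p (n + 2)) := by
  rw [dP_cupP, castP_self]
  congr 1
  exact congrArg _ (castP_self rfl _)

/-- the Leibniz rule for right multiplication, degree two -/
theorem dP_RM2 (y : CobP p 2) (z : CobP p n) : dP (n + 2) (cupP z y) =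
    castP (by omega) (cupP (dP n z) y : CobP p (n + 1 + 2)) +
      ((-1 : ℤ) ^ n) • (cupP z (dP 2 y) : CobP p (n + 3)) := by
  rw [dP_cupP]
  congr 1
  exact congrArg _ (castP_self rfl _)

theorem cupP_cupP {a b c : ℕ} (x : CobP p a) (y : CobP p b) (z : CobP p c) :
    castP (add_assoc a b c) (cupP (cupP x y) z) = cupP x (cupP y z) := by
  rw [cupP_assoc]
  apply ext_evG
  intro B _ _ g
  rw [evG_castP, evG_castP]

omit hp in
theorem castP_castP {l : ℕ} (h : n = m) (h' : m = l) (x : CobP p n) :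
    castP h' (castP h x) = castP (h.trans h') x := by
  subst h
  subst h'
  rw [castP_self, castP_self]

theorem cupP_cupP11 (x : CobP p n) (y : CobP p 1) (z : CobP p 1) :
    (cupP x (cupP y z) : CobP p (n + 2)) = cupP (cupP x y) z := by
  rw [← cupP_cupP]
  exact castP_self rfl _

/-- coboundary of `z · h_v` -/
theorem dP_RH (i j : ℕ) (z : CobP p n) : dP (n + 1) (RH (i, j) n z) =
    RH (i, j) (n + 1) (dP n z) - ((-1 : ℤ) ^ n) •
      ∑ a ∈ range i, RH (i - (a + 1), j + a + 1) (n + 1) (RH (a, j) n z) := by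
  have h1 : (cupP z (dP 1 (hP p (i + 1) j)) : CobP p (n + 2)) =
      -∑ a ∈ range i, (RH (i - (a + 1), j + a + 1) (n + 1) (RH (a, j) n z) : CobP p (n + 2)) := by
    rw [dP_hh]
    refine (cupP_neg (b := 2) _ _).trans (congrArg Neg.neg ?_)
    refine (cupP_sum (b := 2) _ _ _).trans (sum_congr rfl fun a _ => ?_)
    rw [cupP_cupP11]
    rfl
  have h2 := dP_RM1 (hP p (i + 1) j) z
  rw [h1, smul_neg, ← sub_eq_add_neg] at h2
  exact h2

theorem cupP_cupP21 (x : CobP p n) (y : CobP p 2) (z : CobP p 1) :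
    (cupP x (cupP y z) : CobP p (n + 3)) = cupP (cupP x y) z := by
  rw [← cupP_cupP]
  exact castP_self rfl _

theorem cupP_cupP12 (x : CobP p n) (y : CobP p 1) (z : CobP p 2) (h : n + 1 + 2 = n + 3) :
    (cupP x (cupP y z) : CobP p (n + 3)) = castP h (cupP (cupP x y) z) := by
  rw [← cupP_cupP]

/-- coboundary of `z · b_v` -/
theorem dP_RB (i j : ℕ) (z : CobP p n) (h : n + 1 + 2 = n + 3) : dP (n + 2) (RB (i, j) n z) =
    castP h (RB (i, j) (n + 1) (dP n z)) + ((-1 : ℤ) ^ n) •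
      ∑ a ∈ range i, ((RH (i - (a + 1), j + a + 2) (n + 2) (RB (a, j) n z) : CobP p (n + 3)) -
        castP h (RB (i - (a + 1), j + a + 1) (n + 1) (RH (a, j + 1) n z))) := by
  have h1 : (cupP z (dP 2 (bm p (i, j))) : CobP p (n + 3)) =
      ∑ a ∈ range i, ((RH (i - (a + 1), j + a + 2) (n + 2) (RB (a, j) n z) : CobP p (n + 3)) -
        castP h (RB (i - (a + 1), j + a + 1) (n + 1) (RH (a, j + 1) n z))) := by
    rw [dP_bm]
    refine (cupP_sum (b := 3) _ _ _).trans (sum_congr rfl fun a _ => ?_)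
    refine (cupP_sub (b := 3) _ _ _).trans ?_
    rw [cupP_cupP21, cupP_cupP12 _ _ _ h]
    rfl
  rw [← h1]
  exact dP_RM2 (bm p (i, j)) z

end

end Vale.Agent.P257.H254

end
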