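import Vale.Agent.P257.H632.Iface
import Vale.Agent.P257.H254.RMul

/-! # P257 / H254 / Stub : the multiplicative properties of the filtration -/

noncomputable section

namespace Vale.Agent.P257.H254

open Vale.Agent.P257.H93 Vale.Agent.P257.H134 Vale.Agent.P257.H632

variable {p : ℕ} [hp : Fact p.Prime] {μ : ℕ × ℕ → ℕ} {n : ℕ}

theorem Fil_mul (hμ : IsMu p μ) {a b : ℕ} {x y : CobP p n} (hx : x ∈ Fil μ n (a + 1))
    (hy : y ∈ Fil μ n (b + 1)) : x * y ∈ Fil μ n (a + b + 1) := by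
  have h := H941.Fil_mul hμ.frob hx hy
  rwa [show a + 1 + b = a + b + 1 by ring] at h

theorem Fil_X (hμ : IsMu p μ) (k : Fin n) (i j : ℕ) :
    (MvPolynomial.X (k, i) ^ p ^ j : CobP p n) ∈ Fil μ n (μ (i, j) + 1) :=
  H941.X_pow_mem_Fil hμ.frob k i j

theorem Fil_cup (_hμ : IsMu p μ) {s t a b : ℕ} {x : CobP p a} {y : CobP p b}
    (hx : x ∈ Fil μ a (s + 1)) (hy : y ∈ Fil μ b (t + 1)) :
    cupP x y ∈ Fil μ (a + b) (s + t + 1) := by
  have h := H941.Fil_cup hx hy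
  rwa [show s + 1 + t = s + t + 1 by ring] at h

theorem Fil_zero_eq (n : ℕ) : Fil (p := p) μ n 0 = ⊥ := H941.Fil_zero

theorem exists_mem_Fil (n : ℕ) (w : CobP p n) : ∃ m, w ∈ Fil μ n m := H941.exists_mem_Fil μ w

end Vale.Agent.P257.H254

end
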