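import Vale.Agent.P257.H254.Stub
import Vale.Agent.P257.H254.IsBb

/-! # P257 / H254 / Words : words in `h_v`, `b_v` -/

noncomputable section

namespace Vale.Agent.P257.H254

open Vale.Agent.P257.H93 Vale.Agent.P257.H134 Vale.Agent.P257.H632

variable {p : ℕ}

/-- letters -/
inductive Lt : Type
  | h (v : ℕ × ℕ) : Lt
  | b (v : ℕ × ℕ) : Lt

/-- the degree of a word; the head of the list is the last factor -/
@[simp] def dg : List Lt → ℕ
  | [] => 0
  | .h _ :: w => dg w + 1
  | .b _ :: w => dg w + 2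

/-- the level of a word -/
@[simp] def lw (p : ℕ) (μ : ℕ × ℕ → ℕ) : List Lt → ℕ
  | [] => 0
  | .h v :: w => lw p μ w + μ v
  | .b v :: w => lw p μ w + p * μ v

/-- the exterior factors -/
@[simp] def hs : List Lt → Finset (ℕ × ℕ)
  | [] => ∅
  | .h v :: w => insert v (hs w)
  | .b _ :: w => hs w

/-- the polynomial factors -/
@[simp] def bs : List Lt → ((ℕ × ℕ) →₀ ℕ)
  | [] => 0
  | .h _ :: w => bs w
  | .b v :: w => bs w + Finsupp.single v 1

/-- the sign of a word -/
@[simp] def sn : List Lt → ℤ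
  | [] => 1
  | .h v :: w => if v ∈ hs w then 0 else sg v (hs w) * sn w
  | .b _ :: w => sn w

/-- the cochain of a word -/
def cw (p : ℕ) [Fact p.Prime] : (w : List Lt) → CobP p (dg w)
  | [] => 1
  | .h v :: w => RH v (dg w) (cw p w)
  | .b v :: w => RB v (dg w) (cw p w)

theorem levM_erase {μ : ℕ × ℕ → ℕ} {r : EI (ℕ × ℕ)} {v : ℕ × ℕ} (hv : v ∈ r.1) :
    levM p μ r = levM p μ (r.1.erase v, r.2) + μ v := by
  simp only [levM]
  rw [← Finset.add_sum_erase _ _ hv]
  ring

theorem levM_sub {μ : ℕ × ℕ → ℕ} {r : EI (ℕ × ℕ)} {v : ℕ × ℕ} (hv : 1 ≤ r.2 v) :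
    levM p μ r = levM p μ (r.1, r.2 - Finsupp.single v 1) + p * μ v := by
  have h1 : r.2 = (r.2 - Finsupp.single v 1) + Finsupp.single v 1 := by
    rw [tsub_add_cancel_of_le]
    rw [Finsupp.single_le_iff]
    exact hv
  simp only [levM]
  conv_lhs => rw [h1]
  rw [Finsupp.sum_add_index' (fun _ => by simp) (fun _ _ _ => by ring),
    Finsupp.sum_single_index (by simp)]
  ring

variable [hp : Fact p.Prime] {μ : ℕ × ℕ → ℕ}

omit hp in
theorem one_mem_Fil : (1 : CobP p 0) ∈ Fil μ 0 1 := by
  intro l hl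
  rw [symb]
  split_ifs with h
  · have h1 : l = [] := List.length_eq_zero_iff.1 h.1
    subst h1
    simp [lev] at hl
  · rfl

theorem hP_mem_Fil (hμ : IsMu p μ) (v : ℕ × ℕ) : hP p (v.1 + 1) v.2 ∈ Fil μ 1 (μ v + 1) :=
  Fil_X hμ 0 v.1 v.2

theorem RH_mem (hμ : IsMu p μ) {n m : ℕ} {z : CobP p n} (hz : z ∈ Fil μ n (m + 1)) (v : ℕ × ℕ) :
    RH v n z ∈ Fil μ (n + 1) (m + μ v + 1) := Fil_cup hμ hz (hP_mem_Fil hμ v)

theorem RB_mem (hμ : IsMu p μ) {n m : ℕ} {z : CobP p n} (hz : z ∈ Fil μ n (m + 1)) (v : ℕ × ℕ) :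
    RB v n z ∈ Fil μ (n + 2) (m + p * μ v + 1) := Fil_cup hμ hz (isB_bm hμ v).mem

theorem cw_mem (hμ : IsMu p μ) (w : List Lt) : cw p w ∈ Fil μ (dg w) (lw p μ w + 1) := by
  induction w with
  | nil => exact one_mem_Fil
  | cons a w ih =>
    cases a with
    | h v => exact RH_mem hμ ih v
    | b v => exact RB_mem hμ ih v

theorem cw_mem_WtP (w : List Lt) : cw p w ∈ WtP p (dg w) (lw p (wD p) w) := by
  induction w with
  | nil => exact MvPolynomial.isWeightedHomogeneous_one _ _
  | cons a w ih =>
    cases a with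
    | h v => exact cupP_mem_WtP ih (hP_mem_WtP v.1 v.2)
    | b v => exact cupP_mem_WtP ih (Submodule.neg_mem _ (bP_mem_WtP v.1 v.2))

theorem Th_one (r : EI (ℕ × ℕ)) : Th 0 r (1 : CobP p 0) = if r = (∅, 0) then 1 else 0 := by
  have h : symb 0 (1 : CobP p 0) [] = 1 := by
    rw [symb, if_pos ⟨rfl, fun m hm => absurd hm List.not_mem_nil⟩]
    simp [fac, toE]
  rw [Th, thW, Function.iterate_zero, id, toC, h, one_smul]
  rfl

theorem Th_RH (hp2 : 2 < p) {n : ℕ} (z : CobP p n) (r : EI (ℕ × ℕ)) (v : ℕ × ℕ) : Th (n + 1) r (RH v n z) =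
    if v ∈ r.1 then (sg v r.1 : ZMod p) * Th n (r.1.erase v, r.2) z else 0 :=
  Th_cup_h hp2 z r v

theorem Th_RB (hμ : IsMu p μ) (hp2 : 2 < p) {n m : ℕ} {z : CobP p n}
    (hz : z ∈ Fil μ n (m + 1)) (v : ℕ × ℕ) (r : EI (ℕ × ℕ)) (hr : m + p * μ v ≤ levM p μ r) :
    Th (n + 2) r (RB v n z) =
      if 1 ≤ r.2 v then Th n (r.1, r.2 - Finsupp.single v 1) z else 0 :=
  Th_cup_b hp2 hz (isB_bm hμ v) r hr

/-- `Θ_r` of a word -/
theorem Th_cw (hμ : IsMu p μ) (hp2 : 2 < p) (w : List Lt) (r : EI (ℕ × ℕ))
    (hr : lw p μ w ≤ levM p μ r) :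
    Th (dg w) r (cw p w) = if r = (hs w, bs w) then (sn w : ZMod p) else 0 := by
  induction w generalizing r with
  | nil =>
    refine (Th_one r).trans ?_
    simp
  | cons a w ih =>
    cases a with
    | h v =>
      refine (Th_RH hp2 (cw p w) r v).trans ?_
      by_cases hv : v ∈ r.1
      · rw [if_pos hv]
        have h1 := levM_erase (p := p) (μ := μ) hv
        simp only [lw] at hr
        rw [ih _ (by omega)]
        by_cases hw : v ∈ hs w
        · have h2 : ((r.1.erase v, r.2) : EI (ℕ × ℕ)) ≠ (hs w, bs w) := by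
            intro h
            have := congrArg Prod.fst h
            simp only at this
            rw [← this] at hw
            exact Finset.notMem_erase v _ hw
          rw [if_neg h2]
          simp [hw]
        · by_cases h3 : r = (hs (Lt.h v :: w), bs (Lt.h v :: w))
          · rw [if_pos h3, if_pos]
            · rw [h3]
              simp only [hs, sn, if_neg hw]
              rw [sg_insert_self]
              push_cast
              ring
            · rw [h3]
              simp [hw]
          · rw [if_neg h3, if_neg, mul_zero]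
            intro h4
            apply h3
            have h5 := congrArg Prod.fst h4
            have h6 := congrArg Prod.snd h4
            simp only at h5 h6
            refine Prod.ext ?_ h6
            rw [hs, ← h5, Finset.insert_erase hv]
      · rw [if_neg hv, if_neg]
        intro h
        apply hv
        rw [h]
        simp
    | b v =>
      simp only [lw] at hr
      refine (Th_RB hμ hp2 (cw_mem hμ w) v r hr).trans ?_
      by_cases hv : 1 ≤ r.2 v
      · rw [if_pos hv]
        have h1 := levM_sub (p := p) (μ := μ) hv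
        rw [ih _ (by omega)]
        have h2 : (r.2 - Finsupp.single v 1) + Finsupp.single v 1 = r.2 :=
          tsub_add_cancel_of_le (Finsupp.single_le_iff.2 hv)
        by_cases h3 : r = (hs (Lt.b v :: w), bs (Lt.b v :: w))
        · rw [if_pos h3, if_pos]
          · rfl
          · rw [h3]
            simp
        · rw [if_neg h3, if_neg]
          intro h4
          apply h3
          have h5 := congrArg Prod.fst h4
          have h6 := congrArg Prod.snd h4
          simp only at h5 h6
          refine Prod.ext h5 ?_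
          rw [bs, ← h6, h2]
      · rw [if_neg hv, if_neg]
        intro h
        apply hv
        rw [h]
        simp

/-! ### the monomial of a word -/

omit hp in
theorem levM_word (w : List Lt) (hw : sn w ≠ 0) : levM p μ (hs w, bs w) = lw p μ w := by
  induction w with
  | nil => simp [levM]
  | cons a w ih =>
    cases a with
    | h v =>
      simp only [sn] at hw
      split_ifs at hw with hv
      · exact absurd rfl hw
      · rw [levM_erase (v := v) (by simp)]
        have h1 : ((((hs (.h v :: w), bs (.h v :: w)) : EI (ℕ × ℕ)).1.erase v,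
            ((hs (.h v :: w), bs (.h v :: w)) : EI (ℕ × ℕ)).2) : EI (ℕ × ℕ)) =
            (hs w, bs w) := by
          simp [Finset.erase_insert hv]
        rw [h1, ih (right_ne_zero_of_mul hw)]
        rfl
    | b v =>
      rw [levM_sub (v := v) (by simp)]
      have h1 : ((((hs (.b v :: w), bs (.b v :: w)) : EI (ℕ × ℕ)).1,
          ((hs (.b v :: w), bs (.b v :: w)) : EI (ℕ × ℕ)).2 - Finsupp.single v 1) :
            EI (ℕ × ℕ)) = (hs w, bs w) := by
        simp
      rw [h1, ih hw]
      rfl

omit hp in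
theorem degM_word (w : List Lt) (hw : sn w ≠ 0) : degM (hs w, bs w) = dg w := by
  induction w with
  | nil => simp [degM]
  | cons a w ih =>
    cases a with
    | h v =>
      simp only [sn] at hw
      split_ifs at hw with hv
      · exact absurd rfl hw
      · have h1 := ih (right_ne_zero_of_mul hw)
        simp only [degM] at h1 ⊢
        simp only [hs, bs, dg]
        rw [Finset.card_insert_of_notMem hv]
        omega
    | b v =>
      have h1 := ih hw
      simp only [degM] at h1 ⊢
      simp only [hs, bs, dg]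
      rw [Finsupp.sum_add_index' (fun _ => rfl) (fun _ _ _ => rfl),
        Finsupp.sum_single_index rfl]
      omega

/-- the cochain of a word, with a given degree -/
def cv (p : ℕ) [Fact p.Prime] (n : ℕ) (w : List Lt) (h : dg w = n) : CobP p n := h ▸ cw p w

theorem cv_mem (hμ : IsMu p μ) {n : ℕ} (w : List Lt) (h : dg w = n) :
    cv p n w h ∈ Fil μ n (lw p μ w + 1) := by
  subst h
  exact cw_mem hμ w

theorem cv_mem_le (hμ : IsMu p μ) {n m : ℕ} (w : List Lt) (h : dg w = n) (hm : lw p μ w < m) :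
    cv p n w h ∈ Fil μ n m := Fil_mono μ n hm (cv_mem hμ w h)

theorem cv_mem_WtP {n W : ℕ} (w : List Lt) (h : dg w = n) (hW : lw p (wD p) w = W) :
    cv p n w h ∈ WtP p n W := by
  subst h
  subst hW
  exact cw_mem_WtP w

theorem Th_cv (hμ : IsMu p μ) (hp2 : 2 < p) {n : ℕ} (w : List Lt) (h : dg w = n)
    (r : EI (ℕ × ℕ)) (hr : lw p μ w ≤ levM p μ r) :
    Th n r (cv p n w h) = if r = (hs w, bs w) then (sn w : ZMod p) else 0 := by
  subst h
  exact Th_cw hμ hp2 w r hr

theorem Th_cv_zero (hμ : IsMu p μ) (hp2 : 2 < p) {n : ℕ} (w : List Lt) (h : dg w = n)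
    (r : EI (ℕ × ℕ)) (hr : lw p μ w ≤ levM p μ r) (h0 : sn w = 0) :
    Th n r (cv p n w h) = 0 := by
  rw [Th_cv hμ hp2 w h r hr, h0]
  simp

theorem Th_cv_self (hμ : IsMu p μ) (hp2 : 2 < p) {n : ℕ} (w w' : List Lt) (h : dg w = n)
    (h' : sn w' ≠ 0) (h1 : hs w' = hs w) (h2 : bs w' = bs w) (h3 : lw p μ w = lw p μ w') :
    Th n (hs w', bs w') (cv p n w h) = (sn w : ZMod p) := by
  rw [Th_cv hμ hp2 w h _ (by rw [levM_word w' h', h3]), if_pos (by rw [h1, h2])]

end Vale.Agent.P257.H254

end
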